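import Vale.Agent.P329.H766.Q2

/-!
# P329 / pair counts by differences: from primitive weights at all clocks to all weights
-/

set_option linter.all false

namespace Vale.Agent.P329.H481

open Vale.Agent.P329 Vale.Agent.P329.H766.Q2

section fibre

variable {α : Type} {m n : ℕ} [NeZero m] [NeZero n]

theorem nc_cast_sum (h : m ∣ n) (ψ : ZMod m → ℤ) (a : α) (X : List α) :
    ∑ r : ZMod n, ψ (ZMod.castHom h (ZMod m) r) * nc n a r X = ∑ r : ZMod m, ψ r * nc m a r X := by
  classical
  induction X with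
  | nil => simp [nc]
  | cons x X ih =>
    simp only [nc, mul_add, Finset.sum_add_distrib, ih]
    congr 1
    by_cases hx : x = a
    · have h1 : ∑ r : ZMod n, ψ (ZMod.castHom h (ZMod m) r) *
          (if x = a ∧ ((X.length : ℕ) : ZMod n) = r then 1 else 0) =
          ψ (ZMod.castHom h (ZMod m) ((X.length : ℕ) : ZMod n)) := by
        rw [Finset.sum_eq_single ((X.length : ℕ) : ZMod n)]
        · rw [if_pos ⟨hx, rfl⟩, mul_one]
        · intro r _ hr
          rw [if_neg fun h2 => hr h2.2.symm, mul_zero]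
        · intro h2
          exact absurd (Finset.mem_univ _) h2
      have h3 : ∑ r : ZMod m, ψ r *
          (if x = a ∧ ((X.length : ℕ) : ZMod m) = r then 1 else 0) =
          ψ ((X.length : ℕ) : ZMod m) := by
        rw [Finset.sum_eq_single ((X.length : ℕ) : ZMod m)]
        · rw [if_pos ⟨hx, rfl⟩, mul_one]
        · intro r _ hr
          rw [if_neg fun h2 => hr h2.2.symm, mul_zero]
        · intro h2
          exact absurd (Finset.mem_univ _) h2
      rw [h1, h3, map_natCast]
    · have h1 : ∀ (P : Prop) [Decidable (x = a ∧ P)], (if x = a ∧ P then (1 : ℤ) else 0) = 0 :=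
        fun P _ => if_neg fun h2 => hx h2.1
      simp only [h1, mul_zero, Finset.sum_const_zero]

theorem PG_cast_sum (h : m ∣ n) (ψ : ZMod m → ℤ) (a b : α) (X : List α) :
    ∑ g : ZMod n, ψ (ZMod.castHom h (ZMod m) g) * PG n g a b X =
      ∑ g : ZMod m, ψ g * PG m g a b X := by
  classical
  induction X with
  | nil => simp [PG]
  | cons x X ih =>
    simp only [PG, mul_add, Finset.sum_add_distrib, ih]
    congr 1
    by_cases hx : x = b
    · simp only [if_pos hx]
      have h1 := nc_cast_sum (n := n) h (fun r => ψ (((X.length : ℕ) : ZMod m) - r)) a X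
      have h2 : ∑ g : ZMod n, ψ (ZMod.castHom h (ZMod m) g) *
          nc n a (((X.length : ℕ) : ZMod n) - g) X =
          ∑ r : ZMod n, ψ (((X.length : ℕ) : ZMod m) - ZMod.castHom h (ZMod m) r) * nc n a r X := by
        rw [← Equiv.sum_comp (Equiv.subLeft ((X.length : ℕ) : ZMod n))]
        refine Finset.sum_congr rfl fun r _ => ?_
        rw [Equiv.subLeft_apply, map_sub, map_natCast, sub_sub_cancel]
      have h3 : ∑ g : ZMod m, ψ g * nc m a (((X.length : ℕ) : ZMod m) - g) X =
          ∑ r : ZMod m, ψ (((X.length : ℕ) : ZMod m) - r) * nc m a r X := by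
        rw [← Equiv.sum_comp (Equiv.subLeft ((X.length : ℕ) : ZMod m))]
        refine Finset.sum_congr rfl fun r _ => ?_
        rw [Equiv.subLeft_apply, sub_sub_cancel]
      rw [h2, h3, h1]
    · simp only [if_neg hx, mul_zero, Finset.sum_const_zero]

end fibre

section ops

variable {n : ℕ} [NeZero n]

/-- sum over the coset of the subgroup of order `p` -/
def Av (n p : ℕ) (φ : ZMod n → ℤ) (x : ZMod n) : ℤ :=
  ∑ j ∈ Finset.range p, φ (x + ((j * (n / p) : ℕ) : ZMod n))

theorem Av_per {p : ℕ} (hp : p ∣ n) (φ : ZMod n → ℤ) (x : ZMod n) :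
    Av n p φ (x + ((n / p : ℕ) : ZMod n)) = Av n p φ x := by
  have h1 := Finset.sum_range_succ (fun j => φ (x + ((j * (n / p) : ℕ) : ZMod n))) p
  have h2 := Finset.sum_range_succ' (fun j => φ (x + ((j * (n / p) : ℕ) : ZMod n))) p
  have h3 : ((p * (n / p) : ℕ) : ZMod n) = 0 := by
    rw [Nat.mul_div_cancel' hp, ZMod.natCast_self]
  rw [h3, add_zero] at h1
  rw [Nat.zero_mul, Nat.cast_zero, add_zero, h1] at h2
  have h4 := add_right_cancel h2
  unfold Av
  rw [h4]
  refine Finset.sum_congr rfl fun j _ => ?_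
  congr 1
  push_cast
  ring

theorem Av_per' {p : ℕ} (hp : p ∣ n) (φ : ZMod n → ℤ) (x : ZMod n) (j : ℕ) :
    Av n p φ (x + ((j * (n / p) : ℕ) : ZMod n)) = Av n p φ x := by
  induction j with
  | zero => simp
  | succ j ih =>
    have h : x + (((j + 1) * (n / p) : ℕ) : ZMod n) =
        x + ((j * (n / p) : ℕ) : ZMod n) + ((n / p : ℕ) : ZMod n) := by
      push_cast
      ring
    rw [h, Av_per hp, ih]

theorem per_factor {m : ℕ} [NeZero m] (h : m ∣ n) (φ : ZMod n → ℤ)
    (hφ : ∀ x, φ (x + ((m : ℕ) : ZMod n)) = φ x) :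
    ∀ x, φ x = (fun y : ZMod m => φ ((y.val : ℕ) : ZMod n)) (ZMod.castHom h (ZMod m) x) := by
  have h1 : ∀ (k : ℕ) (x : ZMod n), φ (x + ((k * m : ℕ) : ZMod n)) = φ x := by
    intro k
    induction k with
    | zero => intro x; simp
    | succ k ih =>
      intro x
      have h2 : x + (((k + 1) * m : ℕ) : ZMod n) = x + ((k * m : ℕ) : ZMod n) + (m : ZMod n) := by
        push_cast
        ring
      rw [h2, hφ, ih]
  intro x
  have h3 : ZMod.castHom h (ZMod m) x = ((x.val : ℕ) : ZMod m) := by
    conv_lhs => rw [← ZMod.natCast_zmod_val x]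
    rw [map_natCast]
  show φ x = φ (((ZMod.castHom h (ZMod m) x).val : ℕ) : ZMod n)
  rw [h3, ZMod.val_natCast, ← h1 (x.val / m) ((x.val % m : ℕ) : ZMod n), ← Nat.cast_add,
    Nat.mul_comm, Nat.mod_add_div, ZMod.natCast_zmod_val]

end ops

/-- primitive weights -/
def Prim (n : ℕ) (φ : ZMod n → ℤ) : Prop :=
  ∀ p : ℕ, p.Prime → p ∣ n → ∀ x : ZMod n,
    ∑ j ∈ Finset.range p, φ (x + ((j * (n / p) : ℕ) : ZMod n)) = 0

theorem pg_of_prim {α : Type} (a b : α)
    (hprim : ∀ (n : ℕ) [NeZero n] (φ : ZMod n → ℤ), Prim n φ →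
      KnZ fun w : List α => ∑ g : ZMod n, φ g * PG n g a b w.reverse) :
    ∀ (n : ℕ), 0 < n → ∀ g : ZMod n, KnZ fun w : List α => PG n g a b w.reverse := by
  classical
  intro n
  induction n using Nat.strong_induction_on with
  | _ n ih =>
  intro hn g
  haveI : NeZero n := ⟨hn.ne'⟩
  -- periodic weights
  have hper : ∀ p : ℕ, p.Prime → p ∣ n → ∀ φ : ZMod n → ℤ,
      (∀ x, φ (x + ((n / p : ℕ) : ZMod n)) = φ x) →
      KnZ fun w : List α => ∑ g : ZMod n, φ g * PG n g a b w.reverse := by
    intro p hp hpn φ hφ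
    have hm : 0 < n / p := Nat.div_pos (Nat.le_of_dvd hn hpn) hp.pos
    haveI : NeZero (n / p) := ⟨hm.ne'⟩
    have hlt : n / p < n := Nat.div_lt_self hn hp.one_lt
    have hd : n / p ∣ n := Nat.div_dvd_of_dvd hpn
    have h1 : KnZ fun w : List α => ∑ y : ZMod (n / p),
        φ ((y.val : ℕ) : ZMod n) * PG (n / p) y a b w.reverse :=
      KnZ.sum _ fun y _ => (ih (n / p) hlt hm y).mul_left _
    refine h1.congr fun w => ?_
    rw [← PG_cast_sum hd (fun y : ZMod (n / p) => φ ((y.val : ℕ) : ZMod n)) a b w.reverse]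
    refine Finset.sum_congr rfl fun x _ => ?_
    congr 1
    exact per_factor hd φ hφ x
  -- downward induction over the primes
  have hdown : ∀ φ : ZMod n → ℤ,
      (∀ p ∈ n.primeFactors, p ∉ n.primeFactors → ∀ x, Av n p φ x = 0) →
      KnZ fun w : List α => ∑ g : ZMod n, φ g * PG n g a b w.reverse := by
    refine Finset.induction_on' (motive := fun S => ∀ φ : ZMod n → ℤ,
      (∀ p ∈ n.primeFactors, p ∉ S → ∀ x, Av n p φ x = 0) →
      KnZ fun w : List α => ∑ g : ZMod n, φ g * PG n g a b w.reverse) n.primeFactors ?_ ?_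
    · intro φ hφ
      refine hprim n φ fun p hp hpn x => ?_
      exact hφ p (Nat.mem_primeFactors.2 ⟨hp, hpn, hn.ne'⟩) (Finset.notMem_empty p) x
    · intro p S hp _ _ hS φ hφ
      obtain ⟨hp1, hp2, _⟩ := Nat.mem_primeFactors.1 hp
      have h1 := hS (fun x => (p : ℤ) * φ x - Av n p φ x) (by
        intro p' hp' hpS x
        obtain ⟨hp1', hp2', _⟩ := Nat.mem_primeFactors.1 hp'
        show ∑ j ∈ Finset.range p', ((p : ℤ) * φ (x + ((j * (n / p') : ℕ) : ZMod n)) -
          Av n p φ (x + ((j * (n / p') : ℕ) : ZMod n))) = 0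
        rw [Finset.sum_sub_distrib, ← Finset.mul_sum]
        by_cases he : p' = p
        · subst he
          rw [Finset.sum_congr rfl fun j _ => Av_per' hp2 φ x j, Finset.sum_const,
            Finset.card_range, nsmul_eq_mul]
          exact sub_self _
        · have h2 := hφ p' hp' (by
            rw [Finset.mem_insert]
            rintro (h3 | h3)
            · exact he h3
            · exact hpS h3)
          have h4 : ∑ j ∈ Finset.range p', φ (x + ((j * (n / p') : ℕ) : ZMod n)) = 0 := h2 x
          rw [h4, mul_zero, zero_sub, neg_eq_zero]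
          unfold Av
          rw [Finset.sum_comm]
          refine Finset.sum_eq_zero fun i _ => ?_
          have h5 := h2 (x + ((i * (n / p) : ℕ) : ZMod n))
          unfold Av at h5
          rw [← h5]
          refine Finset.sum_congr rfl fun j _ => ?_
          congr 1
          ring)
      have h2 := hper p hp1 hp2 (fun x => Av n p φ x) (Av_per hp2 φ)
      refine KnZ.div hp1.pos ((h1.add h2).congr fun w => ?_)
      rw [← Finset.sum_add_distrib, Finset.mul_sum]
      refine Finset.sum_congr rfl fun x _ => ?_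
      ring
  refine (hdown (fun s => if s = g then 1 else 0) fun p hp hp' => absurd hp hp').congr fun w => ?_
  rw [Finset.sum_eq_single g]
  · rw [if_pos rfl, one_mul]
  · intro s _ hs
    rw [if_neg hs, zero_mul]
  · intro h
    exact absurd (Finset.mem_univ _) h

end Vale.Agent.P329.H481
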