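import Vale.Agent.P329.H481.Ind
import Vale.Agent.P329.H131.Prim

/-!
# P329 / pair counts by differences at every clock
-/

set_option linter.all false

namespace Vale.Agent.P329.H481

open Vale.Agent.P329 Vale.Agent.P329.H766.Q2

/-- **pair counts with the distance modulo any `n` are known** -/
theorem pgn {α : Type} [Finite α] {n : ℕ} (hn : 0 < n) (g : ZMod n) (a b : α) :
    KnZ fun w : List α => PG n g a b w.reverse :=
  pg_of_prim a b (fun n _ φ hφ => H131.Qn.prim_known φ hφ a b) n hn g

end Vale.Agent.P329.H481
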