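import Vale.Agent.P329.Bdl.K_Bdl_K_Known
import Mathlib.Data.ZMod.Basic
import Mathlib.GroupTheory.Subgroup.Center
import Mathlib.GroupTheory.OrderOfElement
import Mathlib.Logic.Equiv.Fin.Basic
import Mathlib.Tactic

/-!
# P329 / one coset of a normal subgroup with central commutators: the group part [Q3]

All letters in one coset `N g`, `g ^ q ∈ N`, `q` odd, commutators of `N` central in `G`: the value
of a word is a function of the counts `nc q a c` (letters `a` at the places congruent to `c`) and
of the pair counts `pg q a b d` (a letter `a` and a later letter `b` at a distance congruent to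
`d`), modulo the order of `G`.
-/

set_option linter.all false

namespace Vale.Agent.P329.H481

open Vale.Agent.P329

section counts

variable {α : Type}

open Classical in
/-- number of letters `a` at the places congruent to `c` (most recent letter first) -/
noncomputable def nc (q : ℕ) (a : α) (c : ZMod q) : List α → ℕ
  | [] => 0
  | x :: X => nc q a c X + if x = a ∧ (X.length : ZMod q) = c then 1 else 0

open Classical in
/-- number of pairs of a letter `a` and a later letter `b` at a distance congruent to `g` -/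
noncomputable def pg (q : ℕ) (a b : α) (g : ZMod q) : List α → ℕ
  | [] => 0
  | x :: X => pg q a b g X + if x = b then nc q a ((X.length : ZMod q) - g) X else 0

open Classical in
/-- sum of the quotients of the places of the letters `b` -/
noncomputable def tau (q : ℕ) (b : α) : List α → ℕ
  | [] => 0
  | x :: X => tau q b X + if x = b then X.length / q else 0

open Classical in
theorem nc_cons (q : ℕ) (x : α × ZMod q) (b : α) (X : List α) :
    nc q x.1 x.2 (b :: X) =
      nc q x.1 x.2 X + if x = (b, (X.length : ZMod q)) then 1 else 0 := by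
  rw [nc]
  congr 1
  refine if_congr ?_ rfl rfl
  constructor
  · rintro ⟨h1, h2⟩
    exact Prod.ext h1.symm h2.symm
  · rintro rfl
    exact ⟨rfl, rfl⟩

theorem sum_nc [Fintype α] (q : ℕ) [NeZero q] (X : List α) :
    ∑ a : α, ∑ c : ZMod q, nc q a c X = X.length := by
  classical
  induction X with
  | nil => simp [nc]
  | cons x X ih =>
    simp only [nc, Finset.sum_add_distrib, ih, List.length_cons]
    congr 1
    rw [Finset.sum_eq_single x, Finset.sum_eq_single (X.length : ZMod q)]
    · simp
    · intro c _ hc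
      rw [if_neg]
      rintro ⟨_, h⟩
      exact hc h.symm
    · intro h
      exact absurd (Finset.mem_univ _) h
    · intro a _ ha
      apply Finset.sum_eq_zero
      intro c _
      rw [if_neg]
      rintro ⟨h, _⟩
      exact ha h.symm
    · intro h
      exact absurd (Finset.mem_univ _) h

theorem tau_eq [Fintype α] (q : ℕ) [NeZero q] (b : α) (X : List α) :
    q * tau q b X + ∑ c : ZMod q, c.val * nc q b c X =
      ∑ a : α, ∑ g : ZMod q, pg q a b g X := by
  classical
  induction X with
  | nil => simp [tau, nc, pg]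
  | cons x X ih =>
    by_cases hx : x = b
    · subst hx
      simp only [tau, nc, pg, if_true, true_and, Finset.sum_add_distrib, mul_add, ← ih]
      have h1 : ∑ c : ZMod q, c.val * (if (X.length : ZMod q) = c then 1 else 0) =
          X.length % q := by
        rw [Finset.sum_eq_single (X.length : ZMod q)]
        · rw [if_pos rfl, mul_one, ZMod.val_natCast]
        · intro c _ hc
          rw [if_neg (Ne.symm hc), mul_zero]
        · intro h
          exact absurd (Finset.mem_univ _) h
      have h2 : ∑ a : α, ∑ g : ZMod q, nc q a ((X.length : ZMod q) - g) X = X.length := by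
        refine Eq.trans (Finset.sum_congr rfl fun a _ => ?_) (sum_nc q X)
        exact Equiv.sum_comp (Equiv.subLeft (X.length : ZMod q)) fun c => nc q a c X
      rw [h1, h2]
      have h3 := Nat.div_add_mod X.length q
      omega
    · simp only [tau, nc, pg, if_neg hx, hx, false_and, if_false, add_zero, ih]

end counts

section pairs

variable {α A : Type} [AddCommGroup A] [Fintype α] {q : ℕ} [NeZero q]

/-- sum of `h` over the pairs of places -/
noncomputable def PS (h : α × ZMod q → α × ZMod q → A) : List α → A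
  | [] => 0
  | b :: X => PS h X + ∑ x : α × ZMod q, nc q x.1 x.2 X • h x (b, (X.length : ZMod q))

theorem PS_add (h k : α × ZMod q → α × ZMod q → A) (X : List α) :
    PS (fun x y => h x y + k x y) X = PS h X + PS k X := by
  induction X with
  | nil => simp [PS]
  | cons b X ih =>
    simp only [PS, ih, smul_add, Finset.sum_add_distrib]
    abel

theorem PS_neg (h : α × ZMod q → α × ZMod q → A) (X : List α) :
    PS (fun x y => - h x y) X = - PS h X := by
  induction X with
  | nil => simp [PS]
  | cons b X ih =>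
    simp only [PS, ih, smul_neg, Finset.sum_neg_distrib, neg_add_rev]
    abel

theorem PS_one (H : α → α → ZMod q → A) (X : List α) :
    PS (fun x y => H x.1 y.1 (y.2 - x.2)) X =
      ∑ a : α, ∑ b : α, ∑ g : ZMod q, pg q a b g X • H a b g := by
  classical
  induction X with
  | nil => simp [PS, pg]
  | cons b X ih =>
    simp only [PS, ih, pg, add_smul, Finset.sum_add_distrib]
    congr 1
    rw [Fintype.sum_prod_type]
    refine Finset.sum_congr rfl fun a _ => ?_
    rw [Finset.sum_eq_single b]
    · simp only [if_true]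
      rw [← Equiv.sum_comp (Equiv.subLeft (X.length : ZMod q))]
      refine Finset.sum_congr rfl fun c _ => ?_
      simp only [Equiv.subLeft_apply, sub_sub_cancel]
    · intro b' _ hb
      apply Finset.sum_eq_zero
      intro g _
      rw [if_neg (Ne.symm hb), zero_smul]
    · intro h
      exact absurd (Finset.mem_univ _) h

theorem PS_two (e : α × ZMod q → ℕ) (r : α × ZMod q → α × ZMod q → A) (X : List α) :
    PS (fun x y => (if e x < e y then r x y else 0) + (if e y < e x then r y x else 0)) X =
      ∑ x : α × ZMod q, ∑ y : α × ZMod q,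
        (nc q x.1 x.2 X * nc q y.1 y.2 X) • (if e x < e y then r x y else 0) := by
  classical
  induction X with
  | nil => simp [PS, nc]
  | cons b X ih =>
    rw [PS, ih]
    set z : α × ZMod q := (b, (X.length : ZMod q)) with hz
    have h1 : ∀ x y : α × ZMod q, (nc q x.1 x.2 (b :: X) * nc q y.1 y.2 (b :: X)) •
        (if e x < e y then r x y else 0) =
        (nc q x.1 x.2 X * nc q y.1 y.2 X) • (if e x < e y then r x y else 0) +
        ((if y = z then nc q x.1 x.2 X • (if e x < e y then r x y else 0) else 0) +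
        ((if x = z then nc q y.1 y.2 X • (if e x < e y then r x y else 0) else 0))) := by
      intro x y
      rw [nc_cons, nc_cons, ← hz]
      by_cases hx : x = z <;> by_cases hy : y = z
      · rw [if_pos hx, if_pos hy, if_pos hx, if_pos hy, hx, hy, if_neg (lt_irrefl _)]
        simp
      · rw [if_pos hx, if_neg hy, if_pos hx, if_neg hy, add_zero, add_mul, one_mul, add_smul,
          zero_add]
      · rw [if_neg hx, if_pos hy, if_neg hx, if_pos hy, add_zero, mul_add, mul_one, add_smul,
          add_zero]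
      · rw [if_neg hx, if_neg hy, if_neg hx, if_neg hy, add_zero, add_zero, add_zero, add_zero]
    rw [Finset.sum_congr rfl fun x _ => Finset.sum_congr rfl fun y _ => h1 x y]
    simp only [Finset.sum_add_distrib]
    congr 1
    simp only [smul_add, Finset.sum_add_distrib]
    congr 1
    · refine Finset.sum_congr rfl fun x _ => ?_
      rw [Finset.sum_ite_eq' Finset.univ z, if_pos (Finset.mem_univ _)]
    · rw [Finset.sum_comm]
      refine Finset.sum_congr rfl fun y _ => ?_
      rw [Finset.sum_ite_eq' Finset.univ z, if_pos (Finset.mem_univ _)]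

end pairs

section group

variable {G : Type} [Group G]

/-- the center, written additively -/
abbrev Zc (G : Type) [Group G] : Type := Additive (Subgroup.center G)

instance zcComm : AddCommGroup (Zc G) :=
  { (inferInstance : AddGroup (Additive (Subgroup.center G))) with
    add_comm := fun a b => by
      apply Additive.toMul.injective
      apply Subtype.ext
      exact (Subgroup.mem_center_iff.1 (Additive.toMul a : Subgroup.center G).2 _).symm }

/-- value of a central element -/
def vl (z : Zc G) : G := ((Additive.toMul z : Subgroup.center G) : G)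

theorem vl_add (y z : Zc G) : vl (y + z) = vl y * vl z := rfl

theorem vl_zero : vl (0 : Zc G) = 1 := rfl

theorem vl_comm (z : Zc G) (x : G) : vl z * x = x * vl z :=
  (Subgroup.mem_center_iff.1 (Additive.toMul z : Subgroup.center G).2 x).symm

theorem vl_smul (n : ℕ) (z : Zc G) : vl (n • z) = vl z ^ n := by
  induction n with
  | zero => rw [zero_smul, vl_zero, pow_zero]
  | succ n ih => rw [succ_nsmul, vl_add, ih, pow_succ]

theorem vl_neg (z : Zc G) : vl (-z) = (vl z)⁻¹ := rfl

theorem vl_inj {y z : Zc G} (h : vl y = vl z) : y = z :=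
  Additive.toMul.injective (Subtype.ext h)

theorem pow_mul_comm' {x y : G} {z : Zc G}
    (h : x * y * x⁻¹ * y⁻¹ = vl z) (k : ℕ) : x ^ k * y = y * x ^ k * vl z ^ k := by
  have h1 : x * y = y * x * vl z := by
    have : x * y = (x * y * x⁻¹ * y⁻¹) * (y * x) := by group
    rw [this, h, vl_comm]
  induction k with
  | zero => simp
  | succ k ih =>
    calc x ^ (k + 1) * y = x * (x ^ k * y) := by rw [pow_succ', mul_assoc]
      _ = x * y * (x ^ k * vl z ^ k) := by rw [ih]; simp only [mul_assoc]
      _ = y * x * (vl z * x ^ k) * vl z ^ k := by rw [h1]; simp only [mul_assoc]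
      _ = y * x * (x ^ k * vl z) * vl z ^ k := by rw [vl_comm]
      _ = y * x ^ (k + 1) * vl z ^ (k + 1) := by
        rw [pow_succ' x, pow_succ' (vl z)]; simp only [mul_assoc]

/-- ordered product -/
def Om (V : ℕ → G) (E : ℕ → ℕ) : ℕ → G
  | 0 => 1
  | m + 1 => Om V E m * V m ^ E m

theorem Om_congr (V : ℕ → G) {E E' : ℕ → ℕ} (m : ℕ) (h : ∀ i < m, E i = E' i) :
    Om V E m = Om V E' m := by
  induction m with
  | zero => rfl
  | succ m ih =>
    rw [Om, Om, ih fun i hi => h i (by omega), h m (by omega)]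

theorem Om_mul (V : ℕ → G) (c : ℕ → ℕ → Zc G)
    (hc : ∀ i j, V i * V j * (V i)⁻¹ * (V j)⁻¹ = vl (c i j)) (E : ℕ → ℕ) (j m : ℕ)
    (hj : j < m) :
    Om V E m * V j = Om V (fun i => E i + if i = j then 1 else 0) m *
      vl (∑ i ∈ Finset.range m, if j < i then E i • c i j else 0) := by
  induction m with
  | zero => omega
  | succ m ih =>
    rw [Finset.sum_range_succ]
    rcases Nat.lt_succ_iff_lt_or_eq.1 hj with h | h
    · have h1 := ih h
      have h2 := pow_mul_comm' (hc m j) (E m)
      have h3 : E m + (if m = j then 1 else 0) = E m := by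
        rw [if_neg (by omega), add_zero]
      rw [Om, Om, h3, if_pos h, vl_add, vl_smul, mul_assoc, h2, ← mul_assoc, ← mul_assoc, h1]
      simp only [mul_assoc]
      congr 1
      rw [← mul_assoc, vl_comm, mul_assoc]
    · subst h
      have h0 : ∑ i ∈ Finset.range j, (if j < i then E i • c i j else 0) = 0 := by
        apply Finset.sum_eq_zero
        intro i hi
        rw [if_neg]
        have := Finset.mem_range.1 hi
        omega
      rw [h0, if_neg (lt_irrefl _), add_zero, vl_zero, mul_one, Om, Om, if_pos rfl, pow_succ,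
        ← mul_assoc]
      congr 2
      apply Om_congr
      intro i hi
      rw [if_neg (by omega), add_zero]

end group

section known

variable {α : Type}

theorem knZ_mul {N M : List α → ℤ} (hN : KnZ N) (hM : KnZ M) : KnZ fun w => N w * M w := by
  intro n hn
  have hne : NeZero n := ⟨hn.ne'⟩
  have := (hN n hn).comp₂ (hM n hn) fun x y => x * y
  simpa only [Int.cast_mul] using this

theorem kn_pow {G : Type} [Group G] [Finite G] {n : List α → ℕ}
    (hn : KnZ fun w => (n w : ℤ)) (x : G) : Kn fun w => x ^ n w := by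
  have hpos : 0 < Nat.card G := Nat.card_pos
  have hne : NeZero (Nat.card G) := ⟨hpos.ne'⟩
  have h1 := (hn (Nat.card G) hpos).comp fun z => x ^ z.val
  refine Eq.mp (congrArg Kn ?_) h1
  funext w
  show x ^ (((n w : ℤ) : ZMod (Nat.card G))).val = x ^ n w
  rw [Int.cast_natCast, ZMod.val_natCast, pow_mod_natCard]

theorem kn_smul {A : Type} [AddCommGroup A] [Finite A] {n : List α → ℕ}
    (hn : KnZ fun w => (n w : ℤ)) (x : A) : Kn fun w => n w • x := by
  have h : Finite (Multiplicative A) := inferInstanceAs (Finite A)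
  exact kn_pow (G := Multiplicative A) hn (Multiplicative.ofAdd x)

theorem kn_sum {ι A : Type} [AddCommMonoid A] [Finite A] (s : Finset ι) {F : ι → List α → A}
    (h : ∀ i ∈ s, Kn (F i)) : Kn fun w => ∑ i ∈ s, F i w := by
  classical
  induction s using Finset.induction_on with
  | empty => simpa using Kn.const (0 : A)
  | insert a s ha ih =>
    have h1 : Kn fun w => F a w + ∑ i ∈ s, F i w := (h a (Finset.mem_insert_self _ _)).comp₂
      (ih fun i hi => h i (Finset.mem_insert_of_mem hi)) fun x y => x + y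
    have h2 : (fun w => ∑ i ∈ insert a s, F i w) = fun w => F a w + ∑ i ∈ s, F i w := by
      funext w
      exact Finset.sum_insert ha
    rw [h2]
    exact h1

end known

section coset

/-- commutator -/
def cm {G : Type} [Group G] (x y : G) : G := x * y * x⁻¹ * y⁻¹

variable {α G : Type} [Group G]

theorem cm_conj (x y z : G) : cm (z * x * z⁻¹) (z * y * z⁻¹) = z * cm x y * z⁻¹ := by
  unfold cm; group

theorem cm_inv (x y : G) : (cm x y)⁻¹ = cm y x := by
  unfold cm; group

theorem cm_central {x y z : G} (hz : ∀ w : G, z * w = w * z) : cm x (z * y) = cm x y := by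
  unfold cm
  have h1 : (z * y)⁻¹ = z⁻¹ * y⁻¹ := by rw [hz y, mul_inv_rev]
  have h2 : x * (z * y) = z * (x * y) := by rw [← mul_assoc, ← hz x, mul_assoc]
  rw [h1, h2]
  have h3 : z * (x * y) * x⁻¹ * (z⁻¹ * y⁻¹) = z * ((x * y * x⁻¹) * z⁻¹) * y⁻¹ := by group
  have h4 : (x * y * x⁻¹) * z⁻¹ = z⁻¹ * (x * y * x⁻¹) := by
    have := hz (z⁻¹ * (x * y * x⁻¹) * z⁻¹)
    have h5 : z * (z⁻¹ * (x * y * x⁻¹) * z⁻¹) = (x * y * x⁻¹) * z⁻¹ := by group
    have h6 : (z⁻¹ * (x * y * x⁻¹) * z⁻¹) * z = z⁻¹ * (x * y * x⁻¹) := by group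
    rw [← h5, this, h6]
  rw [h3, h4]
  group

theorem central_conj {x z : G} (hx : ∀ w : G, w * x = x * w) : z * x * z⁻¹ = x := by
  rw [hx z, mul_assoc, mul_inv_cancel, mul_one]

open Classical in
/-- central elements, written additively -/
noncomputable def zc (x : G) : Zc G :=
  if h : x ∈ Subgroup.center G then Additive.ofMul ⟨x, h⟩ else 0

theorem vl_zc {x : G} (h : ∀ w : G, w * x = x * w) : vl (zc x) = x := by
  have h1 : x ∈ Subgroup.center G := Subgroup.mem_center_iff.2 h
  rw [zc, dif_pos h1]
  rfl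

/-- values of reversed words -/
def pr (f : α → G) : List α → G
  | [] => 1
  | b :: X => pr f X * f b

theorem pr_reverse (f : α → G) (w : List α) : pr f w.reverse = (w.map f).prod := by
  induction w using List.reverseRecOn with
  | nil => rfl
  | append_singleton w x ih =>
    rw [List.reverse_append, List.map_append, List.prod_append, ← ih]
    simp [pr]

/-- the conjugates of the letters -/
def vv (q : ℕ) (g : G) (u : α → G) (x : α × ZMod q) : G :=
  g ^ x.2.val * u x.1 * (g ^ x.2.val)⁻¹

/-- the twisted commutators -/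
def Bm (g : G) (u : α → G) (a b : α) (m : ℤ) : G := cm (u a) (g ^ m * u b * (g ^ m)⁻¹)

/-- the hypotheses -/
structure Cs (q : ℕ) (N : Subgroup G) (g : G) (u : α → G) : Prop where
  nor : ∀ x ∈ N, ∀ z : G, z * x * z⁻¹ ∈ N
  cen : ∀ x ∈ N, ∀ y ∈ N, ∀ z : G, z * cm x y = cm x y * z
  pw : g ^ q ∈ N
  mem : ∀ a, u a ∈ N

variable {q : ℕ} {N : Subgroup G} {g : G} {u : α → G}

theorem Cs.bc (h : Cs q N g u) (a b : α) (m : ℤ) (z : G) :
    z * Bm g u a b m = Bm g u a b m * z :=
  h.cen _ (h.mem a) _ (h.nor _ (h.mem b) _) z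

theorem Cs.per (h : Cs q N g u) (a b : α) {m n : ℤ} (hmn : (m : ZMod q) = (n : ZMod q)) :
    Bm g u a b m = Bm g u a b n := by
  obtain ⟨t, ht⟩ := (ZMod.intCast_eq_intCast_iff_dvd_sub m n q).1 hmn
  have hk : (g ^ q) ^ t ∈ N := N.zpow_mem h.pw t
  have h1 : g ^ n = g ^ m * (g ^ q) ^ t := by
    have h2 : n = m + q * t := by linarith
    rw [h2, zpow_add, zpow_mul, zpow_natCast]
  have h3 : (g ^ q) ^ t * u b * ((g ^ q) ^ t)⁻¹ = cm ((g ^ q) ^ t) (u b) * u b := by
    unfold cm; group
  have h4 := h.cen _ hk _ (h.mem b)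
  have h5 : g ^ n * u b * (g ^ n)⁻¹ =
      cm ((g ^ q) ^ t) (u b) * (g ^ m * u b * (g ^ m)⁻¹) := by
    calc g ^ n * u b * (g ^ n)⁻¹ = g ^ m * ((g ^ q) ^ t * u b * ((g ^ q) ^ t)⁻¹) * (g ^ m)⁻¹ := by
          rw [h1, mul_inv_rev]; simp only [mul_assoc]
      _ = (g ^ m * cm ((g ^ q) ^ t) (u b)) * u b * (g ^ m)⁻¹ := by
          rw [h3]; simp only [mul_assoc]
      _ = _ := by rw [h4 (g ^ m)]; simp only [mul_assoc]
  unfold Bm
  rw [h5, cm_central fun w => (h4 w).symm]

theorem Cs.neg (h : Cs q N g u) (a : α) (m : ℤ) : Bm g u a a (-m) = (Bm g u a a m)⁻¹ := by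
  have h1 : g ^ m * Bm g u a a (-m) * (g ^ m)⁻¹ = Bm g u a a (-m) :=
    central_conj (h.bc a a (-m))
  rw [← h1, Bm, ← cm_conj, Bm, cm_inv]
  congr 1
  rw [zpow_neg]
  group

theorem Cs.vv_cm [NeZero q] (h : Cs q N g u) (x y : α × ZMod q) :
    cm (vv q g u x) (vv q g u y) = Bm g u x.1 y.1 ((y.2 - x.2).val : ℤ) := by
  have h1 : Bm g u x.1 y.1 ((y.2 - x.2).val : ℤ) = Bm g u x.1 y.1 ((y.2.val : ℤ) - x.2.val) := by
    apply h.per
    push_cast
    simp only [ZMod.natCast_val, ZMod.cast_id', id_eq]
  have h2 : vv q g u y = g ^ x.2.val *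
      (g ^ ((y.2.val : ℤ) - x.2.val) * u y.1 * (g ^ ((y.2.val : ℤ) - x.2.val))⁻¹) *
      (g ^ x.2.val)⁻¹ := by
    have h3 : g ^ x.2.val * g ^ ((y.2.val : ℤ) - x.2.val) = g ^ y.2.val := by
      rw [← zpow_natCast, ← zpow_add, add_sub_cancel, zpow_natCast]
    rw [vv, ← h3, mul_inv_rev]
    simp only [mul_assoc]
  rw [h1, h2, vv, cm_conj]
  exact central_conj (h.bc x.1 y.1 _)

/-- the twisted commutators, additively -/
noncomputable def Hb (q : ℕ) (g : G) (u : α → G) (a b : α) (e : ZMod q) : Zc G :=
  zc (Bm g u a b (e.val : ℤ))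

theorem Cs.vl_Hb (h : Cs q N g u) (a b : α) (e : ZMod q) :
    vl (Hb q g u a b e) = Bm g u a b (e.val : ℤ) := vl_zc (h.bc a b _)

theorem Cs.Hb_neg [NeZero q] (h : Cs q N g u) (a : α) (e : ZMod q) :
    Hb q g u a a (-e) = - Hb q g u a a e := by
  apply vl_inj
  rw [vl_neg, h.vl_Hb, h.vl_Hb, ← h.neg]
  apply h.per
  push_cast
  simp only [ZMod.natCast_val, ZMod.cast_id', id_eq]

theorem Cs.Hb_zero (h : Cs q N g u) (a : α) : Hb q g u a a 0 = 0 := by
  apply vl_inj
  rw [h.vl_Hb, vl_zero, ZMod.val_zero, Bm]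
  simp [cm]

/-- half of the twisted commutators of a letter with itself -/
noncomputable def ph (q : ℕ) (g : G) (u : α → G) (a : α) (e : ZMod q) : Zc G :=
  if e.val < (-e).val then Hb q g u a a e else 0

theorem Cs.ph_sub [NeZero q] (h : Cs q N g u) (ho : Odd q) (a : α) (e : ZMod q) :
    Hb q g u a a e = ph q g u a e - ph q g u a (-e) := by
  unfold ph
  rw [neg_neg]
  rcases lt_trichotomy e.val (-e).val with h1 | h1 | h1
  · rw [if_pos h1, if_neg (by omega), sub_zero]
  · rw [if_neg (by omega), if_neg (by omega), sub_zero]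
    have h2 : e = -e := ZMod.val_injective q h1
    have h3 : e = 0 := by
      rcases (ZMod.neg_eq_self_iff e).1 h2.symm with h4 | h4
      · exact h4
      · exfalso
        obtain ⟨k, hk⟩ := ho
        omega
    rw [h3, h.Hb_zero]
  · rw [if_neg (by omega), if_pos h1, h.Hb_neg, zero_sub, neg_neg]

theorem Cs.conj_pow [NeZero q] (h : Cs q N g u) (n : ℕ) (b : α) :
    g ^ n * u b * (g ^ n)⁻¹ =
      vl ((n / q) • zc (cm (g ^ q) (u b))) * vv q g u (b, (n : ZMod q)) := by
  have h1 : vl (zc (cm (g ^ q) (u b))) = cm (g ^ q) (u b) :=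
    vl_zc (h.cen _ h.pw _ (h.mem b))
  have h2 := pow_mul_comm' (x := g ^ q) (y := u b) (z := zc (cm (g ^ q) (u b))) (by rw [h1]; rfl)
    (n / q)
  have h3 : g ^ n = g ^ (n % q) * (g ^ q) ^ (n / q) := by
    rw [← pow_mul, ← pow_add, Nat.mod_add_div]
  rw [vl_smul, vv]
  simp only [ZMod.val_natCast]
  set z := zc (cm (g ^ q) (u b)) with hz
  calc g ^ n * u b * (g ^ n)⁻¹
      = g ^ (n % q) * ((g ^ q) ^ (n / q) * u b) * ((g ^ q) ^ (n / q))⁻¹ * (g ^ (n % q))⁻¹ := by
        rw [h3, mul_inv_rev]; simp only [mul_assoc]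
    _ = g ^ (n % q) * (u b * (g ^ q) ^ (n / q) * vl z ^ (n / q)) * ((g ^ q) ^ (n / q))⁻¹ *
        (g ^ (n % q))⁻¹ := by rw [h2]
    _ = g ^ (n % q) * (u b * (vl z ^ (n / q) * (g ^ q) ^ (n / q))) * ((g ^ q) ^ (n / q))⁻¹ *
        (g ^ (n % q))⁻¹ := by rw [← vl_smul, vl_comm]; simp only [mul_assoc]
    _ = g ^ (n % q) * (u b * vl z ^ (n / q)) * (g ^ (n % q))⁻¹ := by group
    _ = vl z ^ (n / q) * (g ^ (n % q) * u b * (g ^ (n % q))⁻¹) := by
        rw [← vl_smul, ← vl_comm, ← mul_assoc, ← vl_comm]; simp only [mul_assoc]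

/-- the weight of a pair of places -/
noncomputable def hh (q : ℕ) (g : G) (u : α → G) (e : α × ZMod q → ℕ)
    (x y : α × ZMod q) : Zc G :=
  if e y < e x then Hb q g u x.1 y.1 (y.2 - x.2) else 0

theorem Cs.value [Fintype α] [NeZero q] (h : Cs q N g u) {r : ℕ} (e : α × ZMod q ≃ Fin r)
    (ei : ℕ → α × ZMod q) (hei : ∀ y, ei (e y) = y) (f : α → G) (hf : ∀ a, f a = u a * g)
    (X : List α) :
    pr f X = Om (fun i => vv q g u (ei i)) (fun i => nc q (ei i).1 (ei i).2 X) r *
      vl (∑ b, tau q b X • zc (cm (g ^ q) (u b)) +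
        PS (hh q g u fun y => (e y : ℕ)) X) * g ^ X.length := by
  classical
  have hie : ∀ i (hi : i < r), ei i = e.symm ⟨i, hi⟩ := by
    intro i hi
    have := hei (e.symm ⟨i, hi⟩)
    rwa [Equiv.apply_symm_apply] at this
  induction X with
  | nil =>
    have h1 : ∀ m, Om (fun i => vv q g u (ei i)) (fun i => nc q (ei i).1 (ei i).2 []) m = 1 := by
      intro m
      induction m with
      | zero => rfl
      | succ m ih => rw [Om, ih]; simp [nc]
    rw [h1]
    simp [pr, tau, PS, vl_zero]
  | cons b X ih =>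
    set z : α × ZMod q := (b, (X.length : ZMod q)) with hz
    have hO := Om_mul (fun i => vv q g u (ei i))
      (fun i j => Hb q g u (ei i).1 (ei j).1 ((ei j).2 - (ei i).2)) (fun i j => by
        rw [h.vl_Hb, ← h.vv_cm]; rfl) (fun i => nc q (ei i).1 (ei i).2 X) (e z) r (e z).2
    have hV : (fun i => vv q g u (ei i)) (e z : ℕ) = vv q g u z := by
      show vv q g u (ei (e z : ℕ)) = _
      rw [hei]
    have hE : Om (fun i => vv q g u (ei i)) (fun i => nc q (ei i).1 (ei i).2 X +
        if i = (e z : ℕ) then 1 else 0) r =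
        Om (fun i => vv q g u (ei i)) (fun i => nc q (ei i).1 (ei i).2 (b :: X)) r := by
      apply Om_congr
      intro i hi
      rw [nc_cons, ← hz]
      congr 1
      refine if_congr ?_ rfl rfl
      constructor
      · intro h1
        rw [h1, hei]
      · intro h1
        rw [← h1, hie i hi, Equiv.apply_symm_apply]
    have hS : (∑ i ∈ Finset.range r, if (e z : ℕ) < i then
        nc q (ei i).1 (ei i).2 X •
          Hb q g u (ei i).1 (ei (e z : ℕ)).1 ((ei (e z : ℕ)).2 - (ei i).2) else 0) =
        ∑ x : α × ZMod q, nc q x.1 x.2 X • hh q g u (fun y => (e y : ℕ)) x z := by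
      rw [Finset.sum_range, ← Equiv.sum_comp e]
      refine Finset.sum_congr rfl fun x _ => ?_
      rw [hei, hei, hh]
      by_cases h1 : (e z : ℕ) < e x
      · rw [if_pos h1, if_pos h1]
      · rw [if_neg h1, if_neg h1, smul_zero]
    have hT : ∑ b', tau q b' (b :: X) • zc (cm (g ^ q) (u b')) =
        ∑ b', tau q b' X • zc (cm (g ^ q) (u b')) +
          (X.length / q) • zc (cm (g ^ q) (u b)) := by
      simp only [tau, add_smul, Finset.sum_add_distrib]
      congr 1
      rw [Finset.sum_eq_single b]
      · rw [if_pos rfl]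
      · intro b' _ hb
        rw [if_neg (Ne.symm hb), zero_smul]
      · intro h1
        exact absurd (Finset.mem_univ _) h1
    rw [pr, ih, hf, hT, PS, ← hz, ← hS, ← hE]
    set O := Om (fun i => vv q g u (ei i)) (fun i => nc q (ei i).1 (ei i).2 X) r
    set O' := Om (fun i => vv q g u (ei i)) (fun i => nc q (ei i).1 (ei i).2 X +
        if i = (e z : ℕ) then 1 else 0) r with hO'
    set S := ∑ i ∈ Finset.range r, (if (e z : ℕ) < i then nc q (ei i).1 (ei i).2 X •
          Hb q g u (ei i).1 (ei (e z : ℕ)).1 ((ei (e z : ℕ)).2 - (ei i).2) else 0) with hSdef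
    set T := ∑ b', tau q b' X • zc (cm (g ^ q) (u b'))
    set P := PS (hh q g u fun y => (e y : ℕ)) X
    set R := (X.length / q) • zc (cm (g ^ q) (u b)) with hR
    have hO2 : O * vv q g u z = O' * vl S := by
      rw [← hV]; exact hO
    have hcp := h.conj_pow X.length b
    rw [← hR, ← hz] at hcp
    have e1 : g ^ X.length * (u b * g) = vl R * vv q g u z * g ^ (X.length + 1) := by
      rw [← hcp, pow_succ]; group
    have e2 : O * vl (T + P) * g ^ X.length * (u b * g) =
        O * vl (T + P) * vl R * vv q g u z * g ^ (X.length + 1) := by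
      rw [mul_assoc _ (g ^ X.length), e1]; simp only [mul_assoc]
    have e3 : O * vl (T + P) * vl R * vv q g u z =
        O * vv q g u z * vl (T + P + R) := by
      rw [mul_assoc O, ← vl_add, mul_assoc O, vl_comm, mul_assoc O]
    rw [e2, e3, hO2, mul_assoc O', ← vl_add, List.length_cons]
    congr 3
    abel

theorem Cs.decomp [Fintype α] [NeZero q] (h : Cs q N g u) (ho : Odd q) (ea : α → ℕ)
    (hea : Function.Injective ea) (e : α × ZMod q → ℕ)
    (he : ∀ a c, e (a, c) = c.val + q * ea a) :
    ∃ (H : α → α → ZMod q → Zc G) (r : α × ZMod q → α × ZMod q → Zc G),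
      hh q g u e = fun x y => H x.1 y.1 (y.2 - x.2) +
        -((if e x < e y then r x y else 0) + (if e y < e x then r y x else 0)) := by
  classical
  refine ⟨fun a b d => if ea b < ea a then Hb q g u a b d else
    if a = b then ph q g u a d else 0,
    fun x y => if x.1 = y.1 then ph q g u x.1 (y.2 - x.2) else 0, ?_⟩
  funext ⟨a, c⟩ ⟨b, d⟩
  have hc := ZMod.val_lt c
  have hd := ZMod.val_lt d
  unfold hh
  rw [he, he]
  dsimp only
  by_cases hab : a = b
  · subst hab
    rw [if_neg (lt_irrefl (ea a)), if_pos rfl, if_pos rfl]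
    rcases lt_trichotomy c.val d.val with h1 | h1 | h1
    · rw [if_neg (by omega), if_pos (by omega), if_neg (by omega), add_zero, add_neg_cancel]
    · rw [if_neg (by omega), if_neg (by omega), if_neg (by omega)]
      have h2 : c = d := ZMod.val_injective q h1
      rw [h2, sub_self, ph, if_neg (by simp), add_zero, neg_zero, add_zero]
    · rw [if_pos (by omega), if_neg (by omega), if_pos (by omega), zero_add, h.ph_sub ho,
        neg_sub, sub_eq_add_neg]
  · have hne : ea a ≠ ea b := fun h1 => hab (hea h1)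
    rw [if_neg hab, if_neg (Ne.symm hab)]
    have h0 : ∀ P Q : Prop, ∀ [Decidable P] [Decidable Q],
        -((if P then (0 : Zc G) else 0) + (if Q then (0 : Zc G) else 0)) = 0 := by
      intro P Q _ _
      rw [ite_self, ite_self, add_zero, neg_zero]
    rw [h0, add_zero]
    rcases lt_or_gt_of_ne hne with h1 | h1
    · have h2 : q * (ea a + 1) ≤ q * ea b := Nat.mul_le_mul_left q h1
      rw [Nat.mul_add, Nat.mul_one] at h2
      rw [if_neg (by omega), if_neg (by omega)]
    · have h2 : q * (ea b + 1) ≤ q * ea a := Nat.mul_le_mul_left q h1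
      rw [Nat.mul_add, Nat.mul_one] at h2
      rw [if_pos (by omega), if_pos (by omega)]

end coset

section final

variable {α G : Type} [Group G] {q : ℕ} {N : Subgroup G} {g : G} {u : α → G}

theorem tau_known [Fintype α] [NeZero q]
    (hn : ∀ (a : α) (c : ZMod q), KnZ fun w : List α => (nc q a c w.reverse : ℤ))
    (hP : ∀ (a b : α) (d : ZMod q), KnZ fun w : List α => (pg q a b d w.reverse : ℤ)) (b : α) :
    KnZ fun w : List α => (tau q b w.reverse : ℤ) := by
  apply KnZ.div (c := q) (NeZero.pos q)
  have h1 : KnZ fun w : List α => (∑ a : α, ∑ d : ZMod q, (pg q a b d w.reverse : ℤ)) -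
      ∑ c : ZMod q, (c.val : ℤ) * (nc q b c w.reverse : ℤ) :=
    (KnZ.sum _ fun a _ => KnZ.sum _ fun d _ => hP a b d).sub
      (KnZ.sum _ fun c _ => (hn b c).mul_left _)
  refine h1.congr fun w => ?_
  have h2 := tau_eq q b w.reverse
  have h3 : ((q * tau q b w.reverse + ∑ c : ZMod q, c.val * nc q b c w.reverse : ℕ) : ℤ) =
      ((∑ a : α, ∑ g : ZMod q, pg q a b g w.reverse : ℕ) : ℤ) := by rw [h2]
  push_cast at h3
  rw [← h3]
  ring

theorem Cs.known [Finite α] [Finite G] [NeZero q] (h : Cs q N g u) (ho : Odd q) (f : α → G)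
    (hf : ∀ a, f a = u a * g)
    (hn : ∀ (a : α) (c : ZMod q), KnZ fun w : List α => (nc q a c w.reverse : ℤ))
    (hP : ∀ (a b : α) (d : ZMod q), KnZ fun w : List α => (pg q a b d w.reverse : ℤ)) :
    Kn fun w : List α => (w.map f).prod := by
  classical
  rcases isEmpty_or_nonempty α with hα | hα
  · have h1 : (fun w : List α => (w.map f).prod) = fun _ => 1 := by
      funext w
      cases w with
      | nil => rfl
      | cons x _ => exact (IsEmpty.false x).elim
    rw [h1]
    exact Kn.const _
  have : Fintype α := Fintype.ofFinite α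
  have hfZ : Finite (Zc G) := inferInstanceAs (Finite (Subgroup.center G))
  let ea : α ≃ Fin (Fintype.card α) := Fintype.equivFin α
  let ez : ZMod q ≃ Fin q :=
    { toFun := fun c => ⟨c.val, ZMod.val_lt c⟩
      invFun := fun i => (i.val : ZMod q)
      left_inv := fun c => by simp
      right_inv := fun i => Fin.ext (ZMod.val_cast_of_lt i.2) }
  let e : α × ZMod q ≃ Fin (Fintype.card α * q) := (Equiv.prodCongr ea ez).trans finProdFinEquiv
  have he : ∀ a c, ((e (a, c) : Fin _) : ℕ) = c.val + q * (ea a).val := fun a c => rfl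
  let ei : ℕ → α × ZMod q := fun i =>
    if hi : i < Fintype.card α * q then e.symm ⟨i, hi⟩ else (Classical.arbitrary α, 0)
  have hei : ∀ y, ei (e y) = y := by
    intro y
    show (if hi : ((e y : Fin _) : ℕ) < Fintype.card α * q then e.symm ⟨_, hi⟩ else _) = y
    rw [dif_pos (e y).2]
    exact e.symm_apply_apply y
  obtain ⟨H, r, hdec⟩ := h.decomp ho (fun a => (ea a).val)
    (fun a b hab => ea.injective (Fin.ext hab)) (fun y => ((e y : Fin _) : ℕ)) he
  have hOm : ∀ m, Kn fun w : List α => Om (fun i => vv q g u (ei i))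
      (fun i => nc q (ei i).1 (ei i).2 w.reverse) m := by
    intro m
    induction m with
    | zero => exact Kn.const _
    | succ m ih => exact ih.comp₂ (kn_pow (hn (ei m).1 (ei m).2) _) fun x y => x * y
  have hT : Kn fun w : List α => ∑ b, tau q b w.reverse • zc (cm (g ^ q) (u b)) :=
    kn_sum _ fun b _ => kn_smul (tau_known hn hP b) _
  have hS1 : Kn fun w : List α =>
      ∑ a : α, ∑ b : α, ∑ d : ZMod q, pg q a b d w.reverse • H a b d :=
    kn_sum _ fun a _ => kn_sum _ fun b _ => kn_sum _ fun d _ => kn_smul (hP a b d) _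
  have hS2 : Kn fun w : List α => ∑ x : α × ZMod q, ∑ y : α × ZMod q,
      (nc q x.1 x.2 w.reverse * nc q y.1 y.2 w.reverse) •
        (if ((e x : Fin _) : ℕ) < ((e y : Fin _) : ℕ) then r x y else 0) := by
    refine kn_sum _ fun x _ => kn_sum _ fun y _ => kn_smul ?_ _
    refine (knZ_mul (hn x.1 x.2) (hn y.1 y.2)).congr fun w => ?_
    push_cast
    rfl
  have hL : Kn fun w : List α => g ^ w.reverse.length := by
    apply kn_pow
    have h1 : KnZ fun w : List α => ∑ a : α, ∑ c : ZMod q, (nc q a c w.reverse : ℤ) :=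
      KnZ.sum _ fun a _ => KnZ.sum _ fun c _ => hn a c
    refine h1.congr fun w => ?_
    rw [← sum_nc q w.reverse]
    push_cast
    rfl
  have hK : Kn fun w : List α => ∑ b, tau q b w.reverse • zc (cm (g ^ q) (u b)) +
      PS (hh q g u fun y => ((e y : Fin _) : ℕ)) w.reverse := by
    refine Eq.mp (congrArg Kn ?_) ((hT.comp₂ hS1 fun x y => x + y).comp₂ hS2 fun x y => x + -y)
    funext w
    rw [hdec, PS_add, PS_neg, PS_one, PS_two, add_assoc]
  refine Eq.mp (congrArg Kn ?_)
    (((hOm (Fintype.card α * q)).comp₂ hK fun x y => x * vl y).comp₂ hL fun x y => x * y)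
  funext w
  rw [← pr_reverse, h.value e ei hei f hf]

end final

end Vale.Agent.P329.H481
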