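import Vale.Agent.P329.H481.Q3
import Vale.Agent.P329.H672.Q2c

/-!
# P329 / one coset of a normal subgroup of prime index with central commutators: closed
-/

set_option linter.all false

namespace Vale.Agent.P329.H481

open Vale.Agent.P329

theorem nc_cast {α : Type} (q : ℕ) (a : α) (c : ZMod q) (X : List α) :
    (nc q a c X : ℤ) = H672.Q2.nc q a c X := by
  classical
  induction X with
  | nil => simp [nc, H672.Q2.nc]
  | cons x X ih =>
    rw [nc, H672.Q2.nc, ← ih]
    push_cast
    rfl

theorem pg_cast {α : Type} (q : ℕ) (a b : α) (g : ZMod q) (X : List α) :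
    (pg q a b g X : ℤ) = H672.Q2.PG q g a b X := by
  classical
  induction X with
  | nil => simp [pg, H672.Q2.PG]
  | cons x X ih =>
    rw [pg, H672.Q2.PG, ← ih, ← nc_cast]
    push_cast
    rfl

/-- letters in one coset of a normal subgroup with central commutators, any odd clock, from the
pair counts -/
theorem coset_of {α G : Type} [Finite α] [Group G] [Finite G] (N : Subgroup G) (q : ℕ) (g : G)
    (f : α → G) (hq : 0 < q) (ho : Odd q)
    (hP : ∀ (a b : α) (d : ZMod q), KnZ fun w : List α => H672.Q2.PG q d a b w.reverse)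
    (hN : N.Normal) (hg : g ^ q ∈ N)
    (hc : ∀ x ∈ N, ∀ y ∈ N, ∀ z : G, z * (x * y * x⁻¹ * y⁻¹) = x * y * x⁻¹ * y⁻¹ * z)
    (hf : ∀ x, g⁻¹ * f x ∈ N) : Kn fun w : List α => (w.map f).prod := by
  haveI : NeZero q := ⟨hq.ne'⟩
  have h : Cs q N g (fun a => f a * g⁻¹) :=
    { nor := fun x hx z => hN.conj_mem x hx z
      cen := hc
      pw := hg
      mem := fun a => by
        have h1 := hN.conj_mem _ (hf a) g
        have h2 : g * (g⁻¹ * f a) * g⁻¹ = f a * g⁻¹ := by group
        rwa [h2] at h1 }
  refine h.known ho f (fun a => by group) (fun a c => ?_) fun a b d => ?_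
  · exact (H672.Q2.nc_known hq a c).congr fun w => nc_cast q a c w.reverse
  · exact (hP a b d).congr fun w => pg_cast q a b d w.reverse

/-- **letters in one coset of a normal subgroup of odd prime index with central commutators** -/
theorem oneCoset {α G : Type} [Finite α] [Group G] [Finite G] (N : Subgroup G) (q : ℕ) (g : G)
    (f : α → G) (hq : q.Prime) (hq2 : q ≠ 2) (hN : N.Normal) (hi : N.index = q) (_hg : g ∉ N)
    (hc : ∀ x ∈ N, ∀ y ∈ N, ∀ z : G, z * (x * y * x⁻¹ * y⁻¹) = x * y * x⁻¹ * y⁻¹ * z)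
    (hf : ∀ x, g⁻¹ * f x ∈ N) : Kn fun w : List α => (w.map f).prod := by
  haveI := hN
  exact coset_of N q g f hq.pos (hq.odd_of_ne_two hq2)
    (fun a b d => H672.Q2.PG_known hq d a b) hN (hi ▸ N.pow_index_mem g) hc hf

end Vale.Agent.P329.H481
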